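/-
R166 Trans/Relabel (leaves R1, R2).  Relabelling of the sites by a permutation e, as a star homomorphism of QuasiLocal.
  `translation d l x` of Def_0296 is `relabelQL (Equiv.addLeft x)`.
PROOF TEXT.
 R1: relabelQL_localUnit: Subtype.ext (relabel_matrixUnit ..).
   relabelQL_spinZ/X/Y: unfold spinZ spinPlus ...; map_sum, map_smul, map_add, map_sub, map_star, relabelQL_localUnit.  relabelQL_bond: map_add, map_mul.
   norm_relabelQL: operatorRelabel is a star algebra equivalence of a C*-algebra, an isometry (StarAlgEquiv.isometry / norm_map); norm on the subtype is the norm of the coercion.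
   relabelQL_exp: NormedSpace.map_exp with continuity of relabelQL (from norm_relabelQL: AddMonoidHomClass.continuous_of_bound / isometry), then map_smul.
 R2: relabelQL_congr: the two star homs agree on the generators of Loc X: StarAlgebra.adjoin_induction on hA (or StarAlgHom.ext_adjoin-type lemma on the restriction):
   generators: relabelQL_localUnit and h x hx; algebraMap: AlgHomClass.commutes; add, mul, star: map_add, map_mul, map_star.
   relabelQL_mem_Loc: image of Loc X lies in Loc (X.image e) (the same induction).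
Helper lemmas: prefix `rl_`.
-/
import Claimed.Agent.R166.Spin.Bond

set_option autoImplicit false
set_option linter.unusedSectionVars false

namespace Claimed.Agent.R166

open Claims.C0296.Heisenberg
open scoped Classical

noncomputable section

variable {d ℓ : ℕ}

theorem relabel_mem (e : Equiv.Perm (Site d)) {A : SpinOperator d ℓ}
    (hA : A ∈ quasiLocalAlgebra d ℓ) : operatorRelabel d ℓ e A ∈ quasiLocalAlgebra d ℓ := by
  let f := (operatorRelabel d ℓ e).toStarAlgHom
  have h : StarAlgebra.adjoin ℂ {A | ∃ x a b, A = matrixUnit d ℓ x a b} ≤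
      (quasiLocalAlgebra d ℓ).comap f := by
    apply StarAlgebra.adjoin_le
    rintro _ ⟨x, a, b, rfl⟩
    change operatorRelabel d ℓ e (matrixUnit d ℓ x a b) ∈ quasiLocalAlgebra d ℓ
    rw [relabel_matrixUnit]
    exact (localUnit d ℓ (e x) a b).property
  have hc : IsClosed ((quasiLocalAlgebra d ℓ).comap f : Set (SpinOperator d ℓ)) :=
    (StarSubalgebra.isClosed_topologicalClosure _).preimage
      (StarAlgEquiv.isometry (operatorRelabel d ℓ e)).continuous
  exact StarSubalgebra.topologicalClosure_minimal h hc hA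

variable (d ℓ)

/-- relabelling of the sites. -/
def relabelQL (e : Equiv.Perm (Site d)) : QuasiLocal d ℓ →⋆ₐ[ℂ] QuasiLocal d ℓ :=
  let f := (operatorRelabel d ℓ e).toStarAlgHom
  (f.comp (quasiLocalAlgebra d ℓ).subtype).codRestrict (quasiLocalAlgebra d ℓ)
    (fun A => relabel_mem e A.property)

variable {d ℓ}

theorem coe_relabelQL (e : Equiv.Perm (Site d)) (A : QuasiLocal d ℓ) :
    ((relabelQL d ℓ e A : QuasiLocal d ℓ) : SpinOperator d ℓ) =
      operatorRelabel d ℓ e (A : SpinOperator d ℓ) := rfl

theorem translation_eq_relabelQL (x : Site d) (A : QuasiLocal d ℓ) :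
    translation d ℓ x A = relabelQL d ℓ (Equiv.addLeft x) A := rfl

theorem relabelQL_localUnit (e : Equiv.Perm (Site d)) (x : Site d) (a b : Level ℓ) :
    relabelQL d ℓ e (localUnit d ℓ x a b) = localUnit d ℓ (e x) a b :=
  Subtype.ext (relabel_matrixUnit e x a b)

theorem relabelQL_spinZ (e : Equiv.Perm (Site d)) (x : Site d) :
    relabelQL d ℓ e (spinZ d ℓ x) = spinZ d ℓ (e x) := by
  unfold spinZ
  simp only [map_sum, map_smul, relabelQL_localUnit]

theorem rl_spinPlus (e : Equiv.Perm (Site d)) (x : Site d) :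
    relabelQL d ℓ e (spinPlus d ℓ x) = spinPlus d ℓ (e x) := by
  unfold spinPlus
  simp only [map_sum, map_smul, relabelQL_localUnit]

theorem rl_spinMinus (e : Equiv.Perm (Site d)) (x : Site d) :
    relabelQL d ℓ e (spinMinus d ℓ x) = spinMinus d ℓ (e x) := by
  unfold spinMinus
  rw [map_star, rl_spinPlus]

theorem relabelQL_spinX (e : Equiv.Perm (Site d)) (x : Site d) :
    relabelQL d ℓ e (spinX d ℓ x) = spinX d ℓ (e x) := by
  unfold spinX
  rw [map_smul, map_add, rl_spinPlus, rl_spinMinus]

theorem relabelQL_spinY (e : Equiv.Perm (Site d)) (x : Site d) :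
    relabelQL d ℓ e (spinY d ℓ x) = spinY d ℓ (e x) := by
  unfold spinY
  rw [map_smul, map_sub, rl_spinPlus, rl_spinMinus]

theorem relabelQL_bond (e : Equiv.Perm (Site d)) (x y : Site d) :
    relabelQL d ℓ e (bond d ℓ x y) = bond d ℓ (e x) (e y) := by
  unfold bond
  simp only [map_add, map_mul, relabelQL_spinX, relabelQL_spinY, relabelQL_spinZ]

theorem norm_relabelQL (e : Equiv.Perm (Site d)) (A : QuasiLocal d ℓ) :
    ‖relabelQL d ℓ e A‖ = ‖A‖ := by
  change ‖operatorRelabel d ℓ e (A : SpinOperator d ℓ)‖ = ‖(A : SpinOperator d ℓ)‖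
  exact (AddMonoidHomClass.isometry_iff_norm _).1
    (StarAlgEquiv.isometry (operatorRelabel d ℓ e)) _

theorem rl_continuous (e : Equiv.Perm (Site d)) :
    Continuous (relabelQL d ℓ e) :=
  (AddMonoidHomClass.isometry_of_norm (relabelQL d ℓ e) (norm_relabelQL e)).continuous

theorem relabelQL_exp (e : Equiv.Perm (Site d)) (c : ℂ) (K : QuasiLocal d ℓ) :
    relabelQL d ℓ e (NormedSpace.exp (c • K)) = NormedSpace.exp (c • relabelQL d ℓ e K) := by
  rw [NormedSpace.map_exp_of_mem_ball (𝕂 := ℂ) (relabelQL d ℓ e) (rl_continuous e) _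
    ((NormedSpace.expSeries_radius_eq_top ℂ (QuasiLocal d ℓ)).symm ▸ edist_lt_top _ _), map_smul]

theorem relabelQL_congr {e e' : Equiv.Perm (Site d)} {X : Finset (Site d)}
    (h : ∀ x ∈ X, e x = e' x) {A : QuasiLocal d ℓ} (hA : A ∈ Loc d ℓ X) :
    relabelQL d ℓ e A = relabelQL d ℓ e' A := by
  unfold Loc at hA
  induction hA using StarAlgebra.adjoin_induction with
  | mem A hA =>
    obtain ⟨x, hx, a, b, rfl⟩ := hA
    rw [relabelQL_localUnit, relabelQL_localUnit, h x hx]
  | algebraMap r => rw [AlgHomClass.commutes, AlgHomClass.commutes]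
  | add A B _ _ hA hB => rw [map_add, map_add, hA, hB]
  | mul A B _ _ hA hB => rw [map_mul, map_mul, hA, hB]
  | star A _ hA => rw [map_star, map_star, hA]

end

end Claimed.Agent.R166
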