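/-
R166 Trans/Torus (leaves R4, R5).  Translations of the discrete torus as permutations of Z^d (identity outside the box), invariance of torusK.
PROOF TEXT.
 R4: tsFun_tsFun: if x ∉ box: both ifs are negative.  If x ∈ box: wrap (a+x) ∈ box (wrap_mem_box), wrap (-a + wrap (a+x)) = wrap (-a + (a + x)) (wrap_add_wrap) = wrap x = x (wrap_eq_self).
   torusShift_mem_iff: by cases on x ∈ box (wrap_mem_box).      add_mem_box: mem_box, Pi.add_apply, omega (push_cast).
 R5: relabelQL_torusK: σ = torusShift d n a.  map_sub, map_neg, map_sum, map_smul, relabelQL_bond, relabelQL_spinZ.  For x ∈ box: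
   σ x = wrap (a+x) =: x',   σ (wrap (x+e_i)) = wrap (a + wrap (x+e_i)) = wrap (a + (x + e_i)) = wrap ((a+x) + e_i) = wrap (wrap (a+x) + e_i) = wrap (x' + e_i)
   (wrap_add_wrap, add_assoc, wrap_wrap_add).  Then reindex the sum over x ∈ box by σ:  Finset.sum_equiv σ (torusShift_mem_iff) or Finset.sum_bij.
Helper lemmas: prefix `to_`.
-/
import Claimed.Agent.R166.Trans.Relabel
import Claimed.Agent.R166.Ham.Wrap

set_option autoImplicit false
set_option linter.unusedSectionVars false

namespace Claimed.Agent.R166

open Claims.C0296.Heisenberg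
open scoped Classical

noncomputable section

variable (d : ℕ)

/-- torus translation by `a` on the box, identity outside. -/
def tsFun (n : ℕ) (a x : Site d) : Site d := if x ∈ box d n then wrap d n (a + x) else x

variable {d}

theorem tsFun_tsFun (n : ℕ) (a x : Site d) : tsFun d n (-a) (tsFun d n a x) = x := by
  by_cases hx : x ∈ box d n
  · have h1 : tsFun d n a x = wrap d n (a + x) := by simp [tsFun, hx]
    rw [h1]
    have h2 : wrap d n (a + x) ∈ box d n := wrap_mem_box n (a + x)
    have h3 : tsFun d n (-a) (wrap d n (a + x)) = wrap d n (-a + wrap d n (a + x)) := by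
      simp [tsFun, h2]
    rw [h3, wrap_add_wrap, neg_add_cancel_left, wrap_eq_self hx]
  · have h1 : tsFun d n a x = x := by simp [tsFun, hx]
    rw [h1]
    simp [tsFun, hx]

variable (d)

/-- torus translation as a permutation of `Z^d`. -/
def torusShift (n : ℕ) (a : Site d) : Equiv.Perm (Site d) where
  toFun := tsFun d n a
  invFun := tsFun d n (-a)
  left_inv := tsFun_tsFun n a
  right_inv x := by
    have := tsFun_tsFun n (-a) x
    rwa [neg_neg] at this

variable {d}

theorem torusShift_apply (n : ℕ) (a x : Site d) :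
    torusShift d n a x = if x ∈ box d n then wrap d n (a + x) else x := rfl

theorem torusShift_mem_iff (n : ℕ) (a x : Site d) : torusShift d n a x ∈ box d n ↔ x ∈ box d n := by
  rw [torusShift_apply]
  by_cases hx : x ∈ box d n
  · simp only [hx, if_true, iff_true]
    exact wrap_mem_box n (a + x)
  · simp only [hx, if_false]

theorem add_mem_box {m s : ℕ} {a x : Site d} (ha : a ∈ box d m) (hx : x ∈ box d s) :
    a + x ∈ box d (m + s) := by
  rw [mem_box] at ha hx ⊢
  intro i
  have h1 := ha i
  have h2 := hx i
  rw [Pi.add_apply]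
  push_cast
  constructor <;> omega

theorem to_shift_edge (n : ℕ) (a x : Site d) (i : Fin d) (hx : x ∈ box d n) :
    torusShift d n a (wrap d n (x + eVec d i)) = wrap d n (torusShift d n a x + eVec d i) := by
  rw [torusShift_apply, if_pos (wrap_mem_box n _), torusShift_apply, if_pos hx, wrap_add_wrap,
    wrap_wrap_add, add_assoc]

theorem to_sum_shift {M : Type*} [AddCommMonoid M] (n : ℕ) (a : Site d) (g : Site d → M) :
    ∑ x ∈ box d n, g (torusShift d n a x) = ∑ x ∈ box d n, g x :=
  Finset.sum_equiv (torusShift d n a) (fun x => (torusShift_mem_iff n a x).symm) (fun _ _ => rfl)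

theorem relabelQL_torusK {ℓ : ℕ} (n : ℕ) (a : Site d) (h : ℝ) :
    relabelQL d ℓ (torusShift d n a) (torusK d ℓ n h) = torusK d ℓ n h := by
  have h1 : relabelQL d ℓ (torusShift d n a) (torusHam d ℓ n) = torusHam d ℓ n := by
    unfold torusHam
    rw [map_neg, map_sum]
    congr 1
    rw [← to_sum_shift n a (fun x => ∑ i : Fin d, bond d ℓ x (wrap d n (x + eVec d i)))]
    refine Finset.sum_congr rfl (fun x hx => ?_)
    rw [map_sum]
    refine Finset.sum_congr rfl (fun i _ => ?_)
    rw [relabelQL_bond, to_shift_edge n a x i hx]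
  have h2 : relabelQL d ℓ (torusShift d n a) (magn d ℓ (box d n)) = magn d ℓ (box d n) := by
    unfold magn
    rw [map_sum, ← to_sum_shift n a (fun x => spinZ d ℓ x)]
    refine Finset.sum_congr rfl (fun x _ => ?_)
    rw [relabelQL_spinZ]
  unfold torusK
  rw [map_sub, map_smul, h1, h2]

end

end Claimed.Agent.R166
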