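/-
R166 Trans/Trace (leaf R3).  Invariance of the finite-volume trace and of the Gibbs functional under relabellings that preserve the volume.
PROOF TEXT.  E := Finsupp.equivCongrLeft e : Configuration ≃ Configuration,  U := l2Reindex E,  operatorRelabel e T = U ∘ T ∘ U⁻¹
   (LinearIsometryEquiv.conjStarAlgEquiv_apply_apply as in the proof of relabel_matrixUnit in Loc/Basic).
   (U v)(c) = v (E.symm c) (l2Reindex_apply'),  U.symm (ket c) = ket (E.symm c)  (ext; l2Reindex_symm_apply'; lp.single_apply; E c' = c ↔ c' = E.symm c).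
   Hence mel (relabelQL e A) c c = mel A (E.symm c) (E.symm c).   E.symm maps confs Λ bijectively onto itself when e preserves Λ:
   support of E.symm c = preimage of the support (Finsupp.equivCongrLeft / equivMapDomain_apply: (E.symm c) x = c (e x)), mem_confs.   Finset.sum_equiv E.symm / sum_bij.
   gibbs_relabelQL:  gibbsW K β = relabelQL e (gibbsW K β) (relabelQL_exp, hK);  gibbsW * relabelQL e A = relabelQL e (gibbsW * A) (map_mul); trL_relabelQL twice... once.
Helper lemmas: prefix `tt_`.
-/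
import Claimed.Agent.R166.Trans.Relabel
import Claimed.Agent.R166.Gibbs.Defs

set_option autoImplicit false
set_option linter.unusedSectionVars false

namespace Claimed.Agent.R166

open Claims.C0296.Heisenberg
open scoped Classical

noncomputable section

variable {d ℓ : ℕ}

theorem tt_symm_apply (e : Equiv.Perm (Site d)) (c : Configuration d ℓ) (x : Site d) :
    ((Finsupp.equivCongrLeft e).symm c) x = c (e x) := by
  rw [Finsupp.equivCongrLeft_symm, Finsupp.equivCongrLeft_apply, Finsupp.equivMapDomain_apply]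
  rfl

theorem tt_symm_single {ι : Type} [inst : DecidableEq ι] (E : ι ≃ ι) (c : ι) :
    (l2Reindex E).symm (lp.single 2 c (1 : ℂ)) = lp.single 2 (E.symm c) (1 : ℂ) := by
  ext c'
  rw [l2Reindex_symm_apply', lp.coeFn_single, lp.coeFn_single]
  by_cases h : c' = E.symm c
  · subst h
    rw [Equiv.apply_symm_apply, Pi.single_eq_same, Pi.single_eq_same]
  · have h2 : E c' ≠ c := fun h' => h (by rw [← h', Equiv.symm_apply_apply])
    rw [Pi.single_eq_of_ne h2, Pi.single_eq_of_ne h]

theorem tt_symm_ket (e : Equiv.Perm (Site d)) (c : Configuration d ℓ) :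
    (l2Reindex (Finsupp.equivCongrLeft e)).symm (ket d ℓ c)
      = ket d ℓ ((Finsupp.equivCongrLeft e).symm c) :=
  tt_symm_single (Finsupp.equivCongrLeft e) c

theorem tt_mel (e : Equiv.Perm (Site d)) (A : QuasiLocal d ℓ) (c : Configuration d ℓ) :
    mel d ℓ (relabelQL d ℓ e A) c c
      = mel d ℓ A ((Finsupp.equivCongrLeft e).symm c) ((Finsupp.equivCongrLeft e).symm c) := by
  unfold mel
  rw [coe_relabelQL]
  simp only [operatorRelabel, LinearIsometryEquiv.conjStarAlgEquiv_apply_apply, l2Reindex_apply']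
  rw [tt_symm_ket]

theorem tt_mem_confs {e : Equiv.Perm (Site d)} {Λ : Finset (Site d)} (he : ∀ x, e x ∈ Λ ↔ x ∈ Λ)
    (c : Configuration d ℓ) :
    c ∈ confs d ℓ Λ ↔ (Finsupp.equivCongrLeft e).symm c ∈ confs d ℓ Λ := by
  rw [mem_confs, mem_confs]
  constructor
  · intro h x hx
    rw [Finsupp.mem_support_iff, tt_symm_apply] at hx
    exact (he x).mp (h (Finsupp.mem_support_iff.mpr hx))
  · intro h y hy
    obtain ⟨x, rfl⟩ := e.surjective y
    apply (he x).mpr
    apply h
    rw [Finsupp.mem_support_iff, tt_symm_apply]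
    exact Finsupp.mem_support_iff.mp hy

theorem trL_relabelQL {e : Equiv.Perm (Site d)} {Λ : Finset (Site d)} (he : ∀ x, e x ∈ Λ ↔ x ∈ Λ)
    (A : QuasiLocal d ℓ) : trL d ℓ Λ (relabelQL d ℓ e A) = trL d ℓ Λ A := by
  unfold trL
  exact Finset.sum_equiv (Finsupp.equivCongrLeft e).symm (fun c => tt_mem_confs he c)
    (fun c _ => tt_mel e A c)

theorem gibbs_relabelQL {e : Equiv.Perm (Site d)} {Λ : Finset (Site d)}
    (he : ∀ x, e x ∈ Λ ↔ x ∈ Λ) {K : QuasiLocal d ℓ} (hK : relabelQL d ℓ e K = K) (β : ℝ)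
    (A : QuasiLocal d ℓ) : gibbs d ℓ Λ K β (relabelQL d ℓ e A) = gibbs d ℓ Λ K β A := by
  have hW : relabelQL d ℓ e (gibbsW K β) = gibbsW K β := by
    unfold gibbsW
    rw [relabelQL_exp, hK]
  rw [gibbs_apply, gibbs_apply]
  congr 1
  conv_lhs => rw [← hW]
  rw [← map_mul, trL_relabelQL he]

end

end Claimed.Agent.R166
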