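/-
R166 Trans/Inv.  ASSEMBLY (architect): the torus Gibbs functional is invariant under lattice translations of observables that stay inside the box.
No sorry in this file.
-/
import Claimed.Agent.R166.Trans.Trace
import Claimed.Agent.R166.Trans.Torus

set_option autoImplicit false
set_option linter.unusedSectionVars false

namespace Claimed.Agent.R166

open Claims.C0296.Heisenberg
open scoped Classical

noncomputable section

variable {d ℓ : ℕ}

theorem gibbs_translation_eq {n s : ℕ} (a : Site d) (ha : ∀ x ∈ box d s, a + x ∈ box d n)
    (hsn : s ≤ n) (h β : ℝ) {A : QuasiLocal d ℓ} (hA : A ∈ Loc d ℓ (box d s)) :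
    gibbs d ℓ (box d n) (torusK d ℓ n h) β (translation d ℓ a A) =
      gibbs d ℓ (box d n) (torusK d ℓ n h) β A := by
  have h1 : translation d ℓ a A = relabelQL d ℓ (torusShift d n a) A := by
    rw [translation_eq_relabelQL]
    refine relabelQL_congr (X := box d s) ?_ hA
    intro x hx
    rw [torusShift_apply, if_pos (box_mono hsn hx), wrap_eq_self (ha x hx)]
    rfl
  rw [h1]
  exact gibbs_relabelQL (torusShift_mem_iff n a) (relabelQL_torusK n a h) β A

end

end Claimed.Agent.R166
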